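import Vale.Agent.P235.H45.Star.Mix
import Vale.Agent.P235.H56.Bound3
import Vale.Agent.P235.H830.Final
import Vale.Agent.P235.H638.MonoQ
import Vale.Agent.P235.H12.Plug
import Vale.Agent.P235.ST.H945.All6

/-!
# P235, star sums: concrete pieces and rounds (helper45)
-/

set_option autoImplicit false

namespace Vale.Agent.P235.H45.Star

open Vale.Agent.P235 Vale.Agent.P235.H134 Vale.Agent.P235.H56 Vale.Agent.P235.H141.Star

/-- **concrete pieces**, absolute constant -/
theorem tame : ∃ A : ℝ, 1 ≤ A ∧ ∀ (w t k : ℕ) (C : ℝ), 1 ≤ C →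
    ∀ (Q : ∀ V : Type, SimpleGraph V → Prop),
      (∀ (V : Type) [Finite V] (G : SimpleGraph V), G.Connected → Q V G → DistortionLE G C) →
      ∀ (V : Type) [Finite V] (G E : SimpleGraph V), G.Connected →
        MSum (StarPiece (Tame w t) Q k) G E →
          DistortionLE G (A * C * (w + Real.log (t + 2) + C * Real.log (k + 2))) := by
  obtain ⟨A, hA, h⟩ := mixed
  obtain ⟨C0, hC0, h1, -, h3, -⟩ := H56.main5 H830.sPrime H638.monoQ H12.allStar
  have hA0 : 0 < A := by linarith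
  have hC00 : 0 < C0 := by linarith
  refine ⟨A * (2 * C0), by nlinarith, fun w t k C hC Q hQ V _ G E hG hE => ?_⟩
  have hw : (0 : ℝ) ≤ w := Nat.cast_nonneg w
  have ht : (0 : ℝ) ≤ t := Nat.cast_nonneg t
  have hk : (0 : ℝ) ≤ k := Nat.cast_nonneg k
  have hl2 : (1 : ℝ) / 2 ≤ Real.log 2 := by have := Real.log_two_gt_d9; linarith
  have hlog : (1 : ℝ) / 2 ≤ Real.log ((t : ℝ) + 2) :=
    hl2.trans (Real.log_le_log (by norm_num) (by linarith))
  have hlk : 0 ≤ Real.log ((k : ℝ) + 2) := Real.log_nonneg (by linarith)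
  obtain ⟨s, hs⟩ : ∃ s : ℝ, s = w + Real.log ((t : ℝ) + 2) := ⟨_, rfl⟩
  have hs1 : 1 / 2 ≤ s := by rw [hs]; linarith
  have hD : 1 ≤ 2 * C0 * s := by nlinarith
  have h5 := h (Tame w t) Q (2 * C0 * s) C k hD hC (fun V _ G hG hT => by
    rcases hT with hT | hT
    · refine ST.H626.EdgeIso.mono' (h3 w t V G hG hT).1 ?_
      rw [← hs]
      nlinarith
    · refine ST.H626.EdgeIso.mono' (h1 V G hG hT).1 ?_
      nlinarith) hQ V G E hG hE
  refine h5.mono ?_
  rw [← hs]
  have h7 : 0 ≤ C * Real.log ((k : ℝ) + 2) := by positivity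
  have h6 : 2 * C0 * s + C * Real.log ((k : ℝ) + 2) ≤
      2 * C0 * (s + C * Real.log ((k : ℝ) + 2)) := by
    nlinarith
  calc A * C * (2 * C0 * s + C * Real.log ((k : ℝ) + 2))
      ≤ A * C * (2 * C0 * (s + C * Real.log ((k : ℝ) + 2))) :=
        mul_le_mul_of_nonneg_left h6 (by positivity)
    _ = _ := by ring

/-- **rounds** -/
theorem nest (w j : ℕ) : ∃ K : ℝ, ∀ (V : Type) [Finite V] (G : SimpleGraph V), G.Connected →
    Nest w j V G → DistortionLE G K := by
  obtain ⟨A, -, hA⟩ := tame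
  induction j with
  | zero =>
    obtain ⟨C, -, -, -, -, -, -, h6⟩ := ST.H945.all6
    obtain ⟨K, hK⟩ := h6 w w
    exact ⟨K, fun V _ G hG h => hK V G hG h⟩
  | succ j ih =>
    obtain ⟨K, hK⟩ := ih
    obtain ⟨K', hK'⟩ := ST.H690.allOps_bounded
      (A * max K 1 * (w + Real.log ((w : ℝ) + 2) + max K 1 * Real.log ((w : ℝ) + 2))) w w
    refine ⟨K', fun V _ G hG h => hK' _ (fun V _ G hG hP => ?_) V G hG h⟩
    obtain ⟨E, hE⟩ := hP
    exact hA w w w (max K 1) (le_max_right _ _) (Nest w j)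
      (fun V _ G hc hq => (hK V G hc hq).mono (le_max_left _ _)) V G E hG hE

/-- the statement of the hand-in -/
theorem all : ∃ K : ℝ, 1 ≤ K ∧
    (∀ (P Q : ∀ V : Type, SimpleGraph V → Prop) (D C : ℝ) (k : ℕ), 1 ≤ D → 1 ≤ C →
      (∀ (V : Type) [Finite V] (G : SimpleGraph V), G.Connected → P V G → EdgeIso G D) →
      (∀ (V : Type) [Finite V] (G : SimpleGraph V), G.Connected → Q V G → DistortionLE G C) →
      ∀ (V : Type) [Finite V] (G E : SimpleGraph V), G.Connected → MSum (StarPiece P Q k) G E →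
        DistortionLE G (K * C * (D + C * Real.log (k + 2)))) ∧
    (∀ (w t k : ℕ) (C : ℝ), 1 ≤ C → ∀ (V : Type) [Finite V] (G E : SimpleGraph V),
      G.Connected → MSum (StarPiece (Tame w t) (fun _ G => DistortionLE G C) k) G E →
        DistortionLE G (K * C * (w + Real.log (t + 2) + C * Real.log (k + 2)))) ∧
    (∀ w j : ℕ, ∃ B : ℝ, ∀ (V : Type) [Finite V] (G : SimpleGraph V), G.Connected →
      Nest w j V G → DistortionLE G B) := by
  obtain ⟨A, hA, h1⟩ := mixed
  obtain ⟨A', hA', h2⟩ := tame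
  refine ⟨max A A', hA.trans (le_max_left _ _), ?_, ?_, nest⟩
  · intro P Q D C k hD hC hP hQ V _ G E hG hE
    refine (h1 P Q D C k hD hC hP hQ V G E hG hE).mono ?_
    have hk : (0 : ℝ) ≤ k := Nat.cast_nonneg k
    have hlk : 0 ≤ Real.log ((k : ℝ) + 2) := Real.log_nonneg (by linarith)
    have h3 : 0 ≤ C * (D + C * Real.log ((k : ℝ) + 2)) := by positivity
    calc A * C * (D + C * Real.log ((k : ℝ) + 2))
        = A * (C * (D + C * Real.log ((k : ℝ) + 2))) := by ring
      _ ≤ max A A' * (C * (D + C * Real.log ((k : ℝ) + 2))) :=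
        mul_le_mul_of_nonneg_right (le_max_left _ _) h3
      _ = _ := by ring
  · intro w t k C hC V _ G E hG hE
    refine (h2 w t k C hC (fun _ G => DistortionLE G C) (fun _ _ _ _ h => h) V G E hG hE).mono ?_
    have hk : (0 : ℝ) ≤ k := Nat.cast_nonneg k
    have hw : (0 : ℝ) ≤ w := Nat.cast_nonneg w
    have ht : (0 : ℝ) ≤ t := Nat.cast_nonneg t
    have hl : 0 ≤ Real.log ((t : ℝ) + 2) := Real.log_nonneg (by linarith)
    have hlk : 0 ≤ Real.log ((k : ℝ) + 2) := Real.log_nonneg (by linarith)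
    have h3 : 0 ≤ C * (w + Real.log ((t : ℝ) + 2) + C * Real.log ((k : ℝ) + 2)) := by positivity
    calc A' * C * (w + Real.log ((t : ℝ) + 2) + C * Real.log ((k : ℝ) + 2))
        = A' * (C * (w + Real.log ((t : ℝ) + 2) + C * Real.log ((k : ℝ) + 2))) := by ring
      _ ≤ max A A' * (C * (w + Real.log ((t : ℝ) + 2) + C * Real.log ((k : ℝ) + 2))) :=
        mul_le_mul_of_nonneg_right (le_max_right _ _) h3
      _ = _ := by ring

end Vale.Agent.P235.H45.Star
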