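import Vale.Agent.P235.H45.Star.CDefs
import Vale.Agent.P235.H45.Star.All
import Vale.Agent.P235.K5.H266.Last

/-!
# P235, StarSums v2: clique sums with centres (helper45; line CX, helper141)
-/

set_option autoImplicit false

namespace Vale.Agent.P235.H45.Star

open Vale.Agent.P235 Vale.Agent.P235.H134 Vale.Agent.P235.H56 Vale.Agent.P235.H141.Star
open Vale.Agent.P235.K5

/-- **the input** (line CX, with centres, [CX5] and [CX6]) -/
def CenStmt : Prop :=
  ∀ (C : ℝ) (k : ℕ), 1 ≤ C → ∃ K : ℝ, 1 ≤ K ∧ ∀ (V : Type) [Finite V] (G H : SimpleGraph V)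
    (n : ℕ) (B M : ℕ → Set V), G ≤ H → G.Connected → Glued k H n B → (∀ t < n, (M t).ncard ≤ k) →
      (∀ t < n, (H.induce (B t)).Connected → DistortionLE (H.induce (B t)) C) →
      (∀ u < n, 0 < u → ∃ t < u, Adh B u ⊆ B t ∧ (Adh B u \ (M t ∪ Adh B t)).Subsingleton) →
        DistortionLE G K

/-- the input in the letters of the hand-in -/
theorem csum (hX : CenStmt) (C : ℝ) (k : ℕ) (hC : 1 ≤ C) : ∃ K : ℝ, 1 ≤ K ∧
    ∀ (Q : ∀ V : Type, SimpleGraph V → Prop),
      (∀ (V : Type) [Finite V] (G : SimpleGraph V), G.Connected → Q V G → DistortionLE G C) →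
      ∀ (V : Type) [Finite V] (G : SimpleGraph V), G.Connected → CSum Q k G → DistortionLE G K := by
  obtain ⟨K, hK, h⟩ := hX C k hC
  refine ⟨K, hK, fun Q hQ V _ G hG hS => ?_⟩
  obtain ⟨H, n, B, M, R, hle, hcov, hR, ht, hu⟩ := hS
  have e : ∀ t, Adh B t = R t := fun t => (hR t).symm
  refine h V G H n B M hle hG ⟨hcov, fun t htn => ?_, fun t htn u hu v hv huv => ?_,
    fun t htn u v hu huB hvB hv => ?_⟩ (fun t htn => (ht t htn).2.1)
    (fun t htn hc => hQ _ _ hc (ht t htn).2.2.2.1) fun u hun h0 => ?_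
  · rw [e]; exact (ht t htn).1
  · rw [e] at hu hv
    exact (ht t htn).2.2.2.2.1 u hu v hv huv
  · refine (ht t htn).2.2.2.2.2 u hu v hv (fun hc => huB ?_) hvB
    rw [hR] at hc
    exact hc.2
  · obtain ⟨t, ht1, ht2, ht3⟩ := hu u hun h0
    refine ⟨t, ht1, ?_, ?_⟩
    · rw [e]; exact ht2
    · rw [e, e]; exact ht3

/-- **rounds** -/
theorem nest2 (hX : CenStmt) (w j : ℕ) : ∃ K : ℝ, ∀ (V : Type) [Finite V] (G : SimpleGraph V),
    G.Connected → Nest2 w j V G → DistortionLE G K := by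
  obtain ⟨A, -, hA⟩ := tame
  induction j with
  | zero =>
    obtain ⟨C, -, -, -, -, -, -, h6⟩ := ST.H945.all6
    obtain ⟨K, hK⟩ := h6 w w
    exact ⟨K, fun V _ G hG h => hK V G hG h⟩
  | succ j ih =>
    obtain ⟨K, hK⟩ := ih
    obtain ⟨K2, -, hK2⟩ := csum hX (max K 1) w (le_max_right _ _)
    obtain ⟨K', hK'⟩ := ST.H690.allOps_bounded
      (max (A * max K 1 * (w + Real.log ((w : ℝ) + 2) + max K 1 * Real.log ((w : ℝ) + 2))) K2) w w
    refine ⟨K', fun V _ G hG h => hK' _ (fun V _ G hG hP => ?_) V G hG h⟩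
    have hQ : ∀ (V : Type) [Finite V] (G : SimpleGraph V), G.Connected → Nest2 w j V G →
        DistortionLE G (max K 1) := fun V _ G hc hq => (hK V G hc hq).mono (le_max_left _ _)
    rcases hP with ⟨E, hE⟩ | hS
    · exact (hA w w w (max K 1) (le_max_right _ _) (Nest2 w j) hQ V G E hG hE).mono
        (le_max_left _ _)
    · exact (hK2 (Nest2 w j) hQ V G hG hS).mono (le_max_right _ _)

/-- the statement of the hand-in, version 2 -/
theorem all2 (hX : CenStmt) : ∃ K : ℝ, 1 ≤ K ∧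
    (∀ (P Q : ∀ V : Type, SimpleGraph V → Prop) (D C : ℝ) (k : ℕ), 1 ≤ D → 1 ≤ C →
      (∀ (V : Type) [Finite V] (G : SimpleGraph V), G.Connected → P V G → EdgeIso G D) →
      (∀ (V : Type) [Finite V] (G : SimpleGraph V), G.Connected → Q V G → DistortionLE G C) →
      ∀ (V : Type) [Finite V] (G E : SimpleGraph V), G.Connected → MSum (StarPiece P Q k) G E →
        DistortionLE G (K * C * (D + C * Real.log (k + 2)))) ∧
    (∀ (w t k : ℕ) (C : ℝ), 1 ≤ C → ∀ (V : Type) [Finite V] (G E : SimpleGraph V),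
      G.Connected → MSum (StarPiece (Tame w t) (fun _ G => DistortionLE G C) k) G E →
        DistortionLE G (K * C * (w + Real.log (t + 2) + C * Real.log (k + 2)))) ∧
    (∀ (C : ℝ) (k : ℕ), ∃ B : ℝ, ∀ (V : Type) [Finite V] (G : SimpleGraph V), G.Connected →
      CSum (fun _ G => DistortionLE G C) k G → DistortionLE G B) ∧
    (∀ w j : ℕ, ∃ B : ℝ, ∀ (V : Type) [Finite V] (G : SimpleGraph V), G.Connected →
      Nest2 w j V G → DistortionLE G B) := by
  obtain ⟨K, hK, h1, h2, -⟩ := all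
  refine ⟨K, hK, h1, h2, fun C k => ?_, nest2 hX⟩
  obtain ⟨B, -, h⟩ := csum hX (max C 1) k (le_max_right _ _)
  exact ⟨B, fun V _ G hG hS => h (fun _ G => DistortionLE G C)
    (fun V _ G _ hd => hd.mono (le_max_left _ _)) V G hG hS⟩

end Vale.Agent.P235.H45.Star
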