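import Vale.Agent.P235.H45.Star.Defs

/-! P235, StarSums v2: definitions of the clause on clique sums (helper45; line CX, helper141). -/

set_option autoImplicit false

namespace Vale.Agent.P235.H45.Star

open Vale.Agent.P235 Vale.Agent.P235.H141.Star

/-- `G` is a spanning subgraph of a graph `H` which is built from the pieces `H[B 0]`, `H[B 1]`, …,
`H[B (n - 1)]` in the class `Q` by gluing them one after another. `R t` is the set of the vertices
of `B t` in earlier pieces; it is a clique with at most `k` vertices. Every `R u` is contained in an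
earlier piece `B t`, and has at most one vertex which is neither in `R t` nor one of the `k` centres
`M t` of this piece. -/
def CSum (Q : ∀ V : Type, SimpleGraph V → Prop) (k : ℕ) {V : Type} (G : SimpleGraph V) : Prop :=
  ∃ (H : SimpleGraph V) (n : ℕ) (B M R : ℕ → Set V), G ≤ H ∧ (∀ v, ∃ t < n, v ∈ B t) ∧
    (∀ t, R t = {v | v ∈ B t ∧ ∃ s < t, v ∈ B s}) ∧
    (∀ t < n, (R t).ncard ≤ k ∧ (M t).ncard ≤ k ∧ (M t).Finite ∧ Q (B t) (H.induce (B t)) ∧
      (∀ u ∈ R t, ∀ v ∈ R t, u ≠ v → H.Adj u v) ∧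
      ∀ u ∈ B t, ∀ v ∉ B t, u ∉ R t → (∃ s < t, v ∈ B s) → ¬ H.Adj u v) ∧
    ∀ u < n, 0 < u → ∃ t < u, R u ⊆ B t ∧ (R u \ (M t ∪ R t)).Subsingleton

/-- The rounds `Nest` with the sums `CSum`. -/
def Nest2 (w : ℕ) : ℕ → ∀ V : Type, SimpleGraph V → Prop
  | 0 => fun _ G => AllOps (fun V G => NearAnySurf w w V G ∨ TreewidthLE G w ∨
      EdgeSumOf (ST.H945.PlaneTw w w w) G ∨ ST.H742.PlaneVortex w V G ∨ DistortionLE G w) w w G
  | j + 1 => fun _ G => AllOps (fun V G => (∃ E : SimpleGraph V,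
      MSum (StarPiece (Tame w w) (Nest2 w j) w) G E) ∨ CSum (Nest2 w j) w G) w w G

end Vale.Agent.P235.H45.Star
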