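import Vale.Agent.P235.H45.Star.CXPlug
import Vale.Agent.P235.H237.CX.Cx4
import Vale.Agent.P235.CX.H89.Three
import Vale.Agent.P235.H141.CX.NG
import Vale.Agent.P235.K5.GX.H43.CX5

/-!
# P235, StarSums v2: the closed statement (helper45)
-/

set_option autoImplicit false

namespace Vale.Agent.P235.H45.Star.CXPlug

open Vale.Agent.P235 Vale.Agent.P235.K5

/-- the input of the hand-in layer, closed -/
theorem cen : CenStmt := cen_of fun C k hC => by
  obtain ⟨K, hK, h⟩ := Vale.Agent.P235.K5.GX.H43.CX.centre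
    (Vale.Agent.P235.H237.CX.cx4 (Vale.Agent.P235.CX.H89.cx3 Vale.Agent.P235.H141.CX.ngStmt)) C k hC
  exact ⟨K, hK, fun V _ G H n B M h1 h2 h3 h4 h5 h6 => h V G H n B M h1 h2 h3 h5 h4 h6⟩

end Vale.Agent.P235.H45.Star.CXPlug
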