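import Vale.Agent.P235.H45.Star.CAll
import Vale.Agent.P235.H283.CX5

/-!
# P235, line CX: `CX5Stmt` gives the input `CenStmt` of the hand-in layer (helper45)
-/

set_option autoImplicit false

namespace Vale.Agent.P235.H45.Star.CXPlug

open Vale.Agent.P235 Vale.Agent.P235.K5 Vale.Agent.P235.H141.CX

theorem dist_empty {V : Type} [IsEmpty V] (G : SimpleGraph V) (C : ℝ) : DistortionLE G C := by
  intro ℓ _
  exact ⟨Unit, inferInstance, 0, fun x => isEmptyElim x, fun x => isEmptyElim x⟩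

theorem cen_of (h5 : CX5Stmt) : CenStmt := by
  intro C k hC
  obtain ⟨K, hK, h⟩ := h5 C k hC
  refine ⟨K, hK, fun V _ G H n B M hle hG hGl hM hD hO => ?_⟩
  have hH : H.Connected := hG.mono hle
  refine h V G H n B (fun t => M t ∩ B t) hle hG hGl (fun t ht => ?_)
    (fun t ht => ⟨Set.inter_subset_right, ?_⟩) fun u hu h0 => ?_
  · rcases (B t).eq_empty_or_nonempty with he | ⟨v, hv⟩
    · have : IsEmpty (B t) := by
        rw [Set.isEmpty_coe_sort]
        exact he
      exact dist_empty _ _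
    · have : Nonempty (B t) := ⟨⟨v, hv⟩⟩
      exact hD t ht ⟨K5.H266.bag_conn hGl hH.preconnected t ht⟩
  · exact (Set.ncard_le_ncard Set.inter_subset_left (Set.toFinite _)).trans (hM t ht)
  · obtain ⟨t, h1, h2, h3⟩ := hO u hu h0
    refine ⟨t, h1, h2, h3.anti fun x hx => ⟨hx.1, fun hc => hx.2 ?_⟩⟩
    rcases hc with hc | hc
    · exact Or.inr ⟨hc, h2 hx.1⟩
    · exact Or.inl hc

end Vale.Agent.P235.H45.Star.CXPlug
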