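import Vale.Agent.P235.H141.Star.Defs
import Vale.Agent.P235.H206.Defs
import Vale.Agent.P235.H56.Defs
import Vale.Agent.P235.H134.Grid.Defs
import Vale.Agent.P235.ST.H945.All6

/-! P235, star sums: definitions of the hand-in (helper45). -/

set_option autoImplicit false

namespace Vale.Agent.P235.H45.Star

open Vale.Agent.P235 Vale.Agent.P235.H134 Vale.Agent.P235.H56 Vale.Agent.P235.H141.Star

/-- The pieces, with their marked edges `E`: a graph of the class `P`, or a graph of the class `Q`
whose marked edges are covered by at most `k` vertices. -/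
def StarPiece (P Q : ∀ V : Type, SimpleGraph V → Prop) (k : ℕ) (V : Type)
    (G E : SimpleGraph V) : Prop :=
  P V G ∨ Q V G ∧ ∃ A : Finset V, A.card ≤ k ∧ ∀ u v, E.Adj u v → u ∈ A ∨ v ∈ A

/-- Every `3`-connected minor of `G` is planar, or has treewidth at most `3`, or has pathwidth or
shortest path depth at most `w` up to `t` deleted vertices; or `G` has no `K_{3,3}` minor. -/
def Tame (w t : ℕ) (V : Type) (G : SimpleGraph V) : Prop :=
  (∀ (W : Type) [Finite W] (H : SimpleGraph W), H.Connected → Conn3 H → IsMinor H G →
    ST.H626.PlanePiece w t W H) ∨ ¬ IsMinor (completeBipartiteGraph (Fin 3) (Fin 3)) G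

/-- `j` rounds. Round `0`: the class of `GnrsOperations`. Round `j + 1`: the graphs obtained by the
operations `AllOps` (parameter `w`) from the star sums of graphs of `Tame w w`, glued at any
edges, and graphs of round `j`, glued at edges covered by `w` vertices. -/
def Nest (w : ℕ) : ℕ → ∀ V : Type, SimpleGraph V → Prop
  | 0 => fun _ G => AllOps (fun V G => NearAnySurf w w V G ∨ TreewidthLE G w ∨
      EdgeSumOf (ST.H945.PlaneTw w w w) G ∨ ST.H742.PlaneVortex w V G ∨ DistortionLE G w) w w G
  | j + 1 => fun _ G => AllOps (fun V G => ∃ E : SimpleGraph V,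
      MSum (StarPiece (Tame w w) (Nest w j) w) G E) w w G

end Vale.Agent.P235.H45.Star
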