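import Vale.Agent.P235.H45.Star.Defs
import Vale.Agent.P235.H23.Star.C
import Vale.Agent.P235.H141.Star.Piece
import Vale.Agent.P235.H142.Star.Ind

/-!
# P235, star sums: the mixed form with two constants (helper45)

Chain STAR: helper141 (`starStmt`), helper142 (`ind`, `super`), helper23 (`emb_sum`); line HUB:
helper15.
-/

set_option autoImplicit false

namespace Vale.Agent.P235.H45.Star

open Vale.Agent.P235 Vale.Agent.P235.H141.Star Vale.Agent.P235.H23.Star

/-- **star sums**, mixed form with two constants -/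
theorem mixed : ∃ K : ℝ, 1 ≤ K ∧
    ∀ (P Q : ∀ V : Type, SimpleGraph V → Prop) (D C : ℝ) (k : ℕ), 1 ≤ D → 1 ≤ C →
      (∀ (V : Type) [Finite V] (G : SimpleGraph V), G.Connected → P V G → EdgeIso G D) →
      (∀ (V : Type) [Finite V] (G : SimpleGraph V), G.Connected → Q V G → DistortionLE G C) →
      ∀ (V : Type) [Finite V] (G E : SimpleGraph V), G.Connected → MSum (StarPiece P Q k) G E →
        DistortionLE G (K * C * (D + C * Real.log (k + 2))) := by
  obtain ⟨K, hK, hB⟩ := starStmt
  refine ⟨72000 * K, by nlinarith, fun P Q D C k hD hC hP hQ V _ G E hconn hE => ?_⟩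
  obtain ⟨k', hk', hkk, hlog⟩ : ∃ k' : ℕ, 1 ≤ k' ∧ k ≤ k' ∧
      Real.log ((k' : ℝ) + 2) ≤ 2 * Real.log ((k : ℝ) + 2) := by
    rcases Nat.eq_zero_or_pos k with h0 | h0
    · subst h0
      refine ⟨1, le_rfl, zero_le_one, ?_⟩
      have h1 : (2 : ℝ) * Real.log (((0 : ℕ) : ℝ) + 2) = Real.log (2 ^ 2) := by
        rw [Real.log_pow]
        norm_num
      rw [h1]
      exact Real.log_le_log (by norm_num) (by norm_num)
    · refine ⟨k, h0, le_rfl, ?_⟩
      have := one_le_log k h0
      linarith
  have hC0 : 0 < C := by linarith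
  have hD0 : 0 < D := by linarith
  have hL := one_le_log k' hk'
  obtain ⟨L, hLe⟩ : ∃ L, L = Real.log ((k' : ℝ) + 2) := ⟨_, rfl⟩
  rw [← hLe] at hL hlog
  have hKC : C ≤ K * C := by nlinarith
  have hKC0 : 0 < K * C := by linarith
  have hKCL : K * C ≤ K * C * L := by nlinarith
  obtain ⟨R, hR⟩ : ∃ R, R = D + K * C * L := ⟨_, rfl⟩
  have hR1 : D + C ≤ R := by linarith
  have hR0 : 0 < R := by linarith
  have hc : 0 < 1 / R := by positivity
  have hc1 : 1 / R ≤ 1 := by
    rw [div_le_one hR0]
    linarith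
  have hcD : 1 / R ≤ 1 / D := one_div_le_one_div_of_le hD0 (by linarith)
  have hcK : 1 / R ≤ 1 / (K * C * L) := one_div_le_one_div_of_le (by linarith) (by linarith)
  have hcC : 1 / R / (12000 * (3 * C)) ≤ 1 / (D + C) :=
    (div_le_self hc.le (by linarith)).trans (one_div_le_one_div_of_le (by linarith) hR1)
  have hmain := emb_sum H142.Star.super H142.Star.ind hc hc1 (by linarith : 1 ≤ 3 * C)
    (by linarith : 1 ≤ D + C) hcC (P := StarPiece P Q k)
    (fun V _ G E hEG hp => by
      rcases hp with hp | ⟨hq, A, h3, h4⟩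
      · exact pieceOK_of_edgeExact hEG ((EdgeIso.edgeExact hD0 fun h => hP V G h hp).mono hcD)
      · intro d d' hpr s t hst
        have : Nonempty V := ⟨s⟩
        have hcn := conn_of_gen hpr.met hpr.gen
        have h5 := hB C k' hC hk' V G E hcn hEG (hQ V G hcn hq) A (h3.trans hkk) h4
        rw [← hLe] at h5
        exact h5.mono hcK d d' hpr s t hst)
    (fun V _ G E hconn hp => by
      rcases hp with hp | hp
      · have h1 := (EdgeIso.edgeExact hD0 fun h => hP V G h hp).distortion (by positivity) hconn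
        rw [one_div_one_div] at h1
        exact h1.mono (by linarith)
      · exact (hQ V G hconn hp.1).mono (by linarith)) hE
  have h0 : 0 < 1 / R / (12000 * (3 * C)) := by positivity
  refine DistortionLE.mono (C := 1 / (1 / R / (12000 * (3 * C)))) ?_ ?_
  · intro ℓ hℓ
    have hd := pathDist_isMet hconn hℓ
    have hgen : Gen G (pathDist G ℓ) := by
      intro f hf x y
      exact pathDist_gen hconn (fun u v huv => (hf u v huv).trans (pathDist_adj hℓ huv)) x y
    obtain ⟨F, hF, hlow, hup⟩ := hmain _ hd hgen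
    refine (hF.smul (one_div_nonneg.2 h0.le)).embeds (fun x y => ?_) (fun x y => ?_)
    · have h1 := mul_le_mul_of_nonneg_left (hlow x y) (one_div_nonneg.2 h0.le)
      rw [← mul_assoc, one_div_mul_cancel h0.ne', one_mul] at h1
      exact h1
    · exact mul_le_mul_of_nonneg_left (hup x y) (one_div_nonneg.2 h0.le)
  · have e : 1 / (1 / R / (12000 * (3 * C))) = 36000 * C * R := by
      field_simp
      ring
    rw [e, hR]
    have h1 : K * C * L ≤ K * C * (2 * Real.log ((k : ℝ) + 2)) :=
      mul_le_mul_of_nonneg_left hlog hKC0.le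
    have h2 : D ≤ 2 * K * D := by nlinarith
    have h3 : D + K * C * L ≤ 2 * K * (D + C * Real.log ((k : ℝ) + 2)) := by
      linarith
    calc 36000 * C * (D + K * C * L)
        ≤ 36000 * C * (2 * K * (D + C * Real.log ((k : ℝ) + 2))) :=
          mul_le_mul_of_nonneg_left h3 (by positivity)
      _ = _ := by ring

end Vale.Agent.P235.H45.Star
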